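import Mathlib
import Vale.Agent.P240.Tree

/-!
P240: rational homological Quillen conjecture when the poset of nontrivial intersections of
maximal elementary abelian `p`-subgroups has height at most one.
-/

namespace Vale.Agent.Results.P240.IntersectionHeightOne

open SimpleGraph


theorem result : ∀ (G : Type) [Group G] [Finite G] (p : ℕ), p.Prime →
    (∀ N : Subgroup G, N.Normal → IsPGroup p N → N = ⊥) →
    (¬ ∃ A B C : {E : Subgroup G // E ≠ ⊥ ∧ (∀ x ∈ E, ∀ y ∈ E, x * y = y * x) ∧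
        ∀ x ∈ E, x ^ p = 1},
      A < B ∧ B < C ∧
      (∀ x : G, (∀ M, IsMax M → A ≤ M → x ∈ M.1) → x ∈ A.1) ∧
      (∀ x : G, (∀ M, IsMax M → B ≤ M → x ∈ M.1) → x ∈ B.1) ∧
      (∀ x : G, (∀ M, IsMax M → C ≤ M → x ∈ M.1) → x ∈ C.1)) →
    IsEmpty {E : Subgroup G // E ≠ ⊥ ∧ (∀ x ∈ E, ∀ y ∈ E, x * y = y * x) ∧
        ∀ x ∈ E, x ^ p = 1} ∨
    (∃ f : {E : Subgroup G // E ≠ ⊥ ∧ (∀ x ∈ E, ∀ y ∈ E, x * y = y * x) ∧
        ∀ x ∈ E, x ^ p = 1} → ℚ,
      (∀ E F, E ≤ F → f E = f F) ∧ ∃ E F, f E ≠ f F) ∨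
    (∃ φ : {E : Subgroup G // E ≠ ⊥ ∧ (∀ x ∈ E, ∀ y ∈ E, x * y = y * x) ∧
        ∀ x ∈ E, x ^ p = 1} →
      {E : Subgroup G // E ≠ ⊥ ∧ (∀ x ∈ E, ∀ y ∈ E, x * y = y * x) ∧
        ∀ x ∈ E, x ^ p = 1} → ℚ,
      (∀ E F H, E < F → F < H → φ E F + φ F H = φ E H) ∧
      ¬ ∃ g : {E : Subgroup G // E ≠ ⊥ ∧ (∀ x ∈ E, ∀ y ∈ E, x * y = y * x) ∧
        ∀ x ∈ E, x ^ p = 1} → ℚ,
        ∀ E F, E < F → φ E F = g F - g E) := by
  intro G _ _ p _hp hO hchain
  classical
  set EA := {E : Subgroup G // E ≠ ⊥ ∧ (∀ x ∈ E, ∀ y ∈ E, x * y = y * x) ∧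
        ∀ x ∈ E, x ^ p = 1}
  have : Finite (Subgroup G) :=
    Finite.of_injective (fun H : Subgroup G => (H : Set G)) SetLike.coe_injective
  have : Finite EA := Subtype.finite
  rcases isEmpty_or_nonempty EA with hE | hE
  · exact Or.inl hE
  right
  let closed : EA → Prop := fun X => ∀ x : G, (∀ M, IsMax M → X ≤ M → x ∈ M.1) → x ∈ X.1
  let cls : EA → Subgroup G := fun E => ⨅ (M : EA) (_ : IsMax M) (_ : E ≤ M), M.1
  have hmem : ∀ E x, x ∈ cls E ↔ ∀ M, IsMax M → E ≤ M → x ∈ M.1 := by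
    intro E x
    simp only [cls, Subgroup.mem_iInf]
  have hle : ∀ E : EA, E.1 ≤ cls E := fun E x hx => (hmem E x).2 fun M _ hM => hM hx
  have hprop : ∀ E : EA, cls E ≠ ⊥ ∧ (∀ x ∈ cls E, ∀ y ∈ cls E, x * y = y * x) ∧
      ∀ x ∈ cls E, x ^ p = 1 := by
    intro E
    obtain ⟨M, hEM, hM⟩ := Finite.exists_le_maximal (p := fun _ : EA => True) (a := E) trivial
    have hMax : IsMax M := fun M' h => hM.2 trivial h
    have hsub : ∀ x ∈ cls E, x ∈ M.1 := fun x hx => (hmem E x).1 hx M hMax hEM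
    exact ⟨ne_bot_of_le_ne_bot E.2.1 (hle E),
      fun x hx y hy => M.2.2.1 x (hsub x hx) y (hsub y hy),
      fun x hx => M.2.2.2 x (hsub x hx)⟩
  have hcl : ∀ E : EA, closed ⟨cls E, hprop E⟩ := fun E x h =>
    (hmem E x).2 fun M hM hEM => h M hM fun y hy => (hmem E y).1 hy M hM hEM
  let r : EA → {X : EA // closed X} := fun E => ⟨⟨cls E, hprop E⟩, hcl E⟩
  have hmono : ∀ E F : EA, E ≤ F → r E ≤ r F := fun E F h x hx =>
    (hmem F x).2 fun M hM hFM => (hmem E x).1 hx M hM (h.trans hFM)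
  have hfix : ∀ X : {X : EA // closed X}, r X.1 = X := fun X => by
    refine Subtype.ext (Subtype.ext (le_antisymm ?_ (hle X.1)))
    exact fun x hx => X.2 x ((hmem X.1 x).1 hx)
  let T : SimpleGraph {X : EA // closed X} := SimpleGraph.fromRel (· < ·)
  have hT : ∀ X Y, T.Adj X Y ↔ X < Y ∨ Y < X := fun X Y => by
    simp only [T, fromRel_adj, and_iff_right_iff_imp]
    rintro (h | h)
    · exact h.ne
    · exact h.ne'
  by_cases hconn : T.Preconnected
  swap
  · left
    obtain ⟨u, v, huv⟩ : ∃ u v, ¬ T.Reachable u v := by simpa [Preconnected] using hconn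
    refine ⟨fun E => if T.Reachable u (r E) then 1 else 0, fun E F h => ?_, u.1, v.1, ?_⟩
    · rcases (hmono E F h).eq_or_lt with e | hlt
      · simp only [e]
      · have ha := ((hT _ _).2 (Or.inl hlt)).reachable
        have : T.Reachable u (r E) ↔ T.Reachable u (r F) :=
          ⟨fun h => h.trans ha, fun h => h.trans ha.symm⟩
        simp only [this]
    · simp [hfix, huv]
  by_cases hac : T.IsAcyclic
  · exfalso
    have : Nonempty {X : EA // closed X} := hE.map r
    obtain ⟨v, w, hvw, hσ⟩ := Vale.Agent.P240.exists_fixed_simplex _ T le_rfl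
      ⟨⟨hconn⟩, hac⟩
    have hiso : ∀ g : G, ∃ σ : T ≃g T,
        ∀ X x, x ∈ X.1.1 → g * x * g⁻¹ ∈ (σ X).1.1 := by
      intro g
      let c : G ≃* G := MulAut.conj g
      have hp' : ∀ (c : G ≃* G) (E : EA), c.mapSubgroup E.1 ≠ ⊥ ∧
          (∀ x ∈ c.mapSubgroup E.1, ∀ y ∈ c.mapSubgroup E.1, x * y = y * x) ∧
          ∀ x ∈ c.mapSubgroup E.1, x ^ p = 1 := by
        intro c E
        refine ⟨fun h => E.2.1 (c.mapSubgroup.injective (h.trans (map_bot _).symm)), ?_, ?_⟩
        · rintro _ ⟨x, hx, rfl⟩ _ ⟨y, hy, rfl⟩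
          rw [← map_mul, ← map_mul, E.2.2.1 x hx y hy]
        · rintro _ ⟨x, hx, rfl⟩
          rw [← map_pow, E.2.2.2 x hx, map_one]
      let e : EA ≃o EA :=
        { toFun := fun E => ⟨c.mapSubgroup E.1, hp' c E⟩
          invFun := fun E => ⟨c.symm.mapSubgroup E.1, hp' c.symm E⟩
          left_inv := fun E => Subtype.ext (c.mapSubgroup.symm_apply_apply E.1)
          right_inv := fun E => Subtype.ext (c.mapSubgroup.apply_symm_apply E.1)
          map_rel_iff' := fun {E F} => c.mapSubgroup.le_iff_le }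
      have hec : ∀ X, closed X ↔ closed (e X) := by
        intro X
        have hm : ∀ (E : EA) x, c x ∈ (e E).1 ↔ x ∈ E.1 := fun E x => by
          show c x ∈ Subgroup.map _ E.1 ↔ _
          exact Subgroup.mem_map_iff_mem c.injective
        constructor
        · intro hX x hx
          obtain ⟨y, rfl⟩ := c.surjective x
          rw [hm]
          exact hX y fun M hM hXM =>
            (hm M y).1 (hx (e M) (e.isMax_apply.2 hM) (e.monotone hXM))
        · intro hX x hx
          rw [← hm]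
          refine hX (c x) fun M hM hXM => ?_
          obtain ⟨M', rfl⟩ := e.surjective M
          exact (hm M' x).2 (hx M' (e.isMax_apply.1 hM) (e.le_iff_le.1 hXM))
      refine ⟨⟨e.toEquiv.subtypeEquiv hec, ?_⟩, fun X x hx => ⟨x, hx, rfl⟩⟩
      intro X Y
      rw [hT, hT]
      exact or_congr e.lt_iff_lt e.lt_iff_lt
    have hnormal : v.1.1.Normal := by
      refine ⟨fun x hx g => ?_⟩
      obtain ⟨σ, hg⟩ := hiso g
      rcases hσ σ with ⟨h1, -⟩ | ⟨h1, h2⟩
      · have := hg v x hx
        rwa [h1] at this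
      · rcases hvw with e | e
        · subst e
          have := hg v x hx
          rwa [h1] at this
        · exfalso
          rcases (hT _ _).1 e with hlt | hlt
          · -- an inclusion-preserving map cannot swap `v < w`
            have hsub : ∀ y ∈ w.1.1, g * y * g⁻¹ ∈ v.1.1 := fun y hy => by
              simpa [h2] using hg w y hy
            have hcard : Nat.card w.1.1 ≤ Nat.card v.1.1 :=
              Nat.card_le_card_of_injective
                (fun y : w.1.1 => (⟨g * y.1 * g⁻¹, hsub y.1 y.2⟩ : v.1.1))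
                (fun a b h => Subtype.ext (by simpa using congrArg Subtype.val h))
            exact hlt.ne (Subtype.ext (Subtype.ext
              (Subgroup.eq_of_le_of_card_ge hlt.le hcard)))
          · have hsub : ∀ y ∈ v.1.1, g * y * g⁻¹ ∈ w.1.1 := fun y hy => by
              simpa [h1] using hg v y hy
            have hcard : Nat.card v.1.1 ≤ Nat.card w.1.1 :=
              Nat.card_le_card_of_injective
                (fun y : v.1.1 => (⟨g * y.1 * g⁻¹, hsub y.1 y.2⟩ : w.1.1))
                (fun a b h => Subtype.ext (by simpa using congrArg Subtype.val h))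
            exact hlt.ne (Subtype.ext (Subtype.ext
              (Subgroup.eq_of_le_of_card_ge hlt.le hcard)))
    exact v.1.2.1 (hO v.1.1 hnormal fun x => ⟨1, by
      rw [pow_one]; exact Subtype.ext (v.1.2.2.2 x.1 x.2)⟩)
  · right
    obtain ⟨a, b, hab, hnb⟩ : ∃ a b, a < b ∧ ¬ T.IsBridge s(a, b) := by
      simp only [isAcyclic_iff_forall_adj_isBridge, not_forall] at hac
      obtain ⟨a, b, hadj, hnb⟩ := hac
      rcases (hT _ _).1 hadj with h | h
      · exact ⟨a, b, h, hnb⟩
      · exact ⟨b, a, h, by rwa [Sym2.eq_swap]⟩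
    refine ⟨fun E F => if r E = a ∧ r F = b then 1 else 0, fun E F H hEF hFH => ?_, ?_⟩
    · have h0 : ∀ X, ¬ (X = a ∧ X = b) := fun X h => hab.ne (h.1.symm.trans h.2)
      rcases (hmono E F hEF.le).eq_or_lt with e | h1
      · simp only [e, h0, if_false, zero_add]
      rcases (hmono F H hFH.le).eq_or_lt with e | h2
      · simp only [← e, h0, if_false, add_zero]
      exact absurd ⟨_, _, _, h1, h2, (r E).2, (r F).2, (r H).2⟩ hchain
    · rintro ⟨g, hg⟩
      have h0 : ∀ X Y : {X : EA // closed X}, X < Y → s(X, Y) ≠ s(a, b) →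
          g X.1 = g Y.1 := by
        intro X Y hXY hne
        have hne' : ¬ (X = a ∧ Y = b) := fun h => hne (by rw [h.1, h.2])
        have := hg X.1 Y.1 hXY
        simp only [hfix, hne', if_false] at this
        linarith
      have hwalk : ∀ {X Y}, (T.deleteEdges {s(a, b)}).Walk X Y → g X.1 = g Y.1 := by
        intro X Y q
        induction q with
        | nil => rfl
        | cons h _ ih =>
          rw [deleteEdges_adj, hT, Set.mem_singleton_iff] at h
          rcases h.1 with hlt | hlt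
          · exact (h0 _ _ hlt h.2).trans ih
          · exact (h0 _ _ hlt (by rw [Sym2.eq_swap]; exact h.2)).symm.trans ih
      rw [isBridge_iff, not_not] at hnb
      have h1 := hg a.1 b.1 hab
      have h2 := hwalk hnb.some
      simp only [hfix, and_self, if_true] at h1
      linarith

end Vale.Agent.Results.P240.IntersectionHeightOne
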